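import Mathlib

set_option autoImplicit false

/-! Matrix algebra for flags of orthogonal projections (used for S0483). -/

namespace Crest.Agent.GL

open Matrix Finset

/-- The key algebraic identity for two interlaced flags of projections. -/
lemma ring_ident {A : Type*} [Ring A] (P P' R R' : A)
    (h1 : P * P = P) (h3 : P * P' = P) (h4 : P' * P = P)
    (h5 : R * R = R)
    (h9 : P * R' = P) (h10 : R' * P = P) (h11 : R * P' = R) (h12 : P' * R = R) :
    (P' - P) * (R' - R) * (P' - P) = P' * R' * P' - P * R * P - (P - R) * (P - R) := by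
  have e1 : P' * R' * P = P := by rw [mul_assoc, h10, h4]
  have e2 : P' * R * P' = R := by rw [h12, h11]
  have e3 : P' * R * P = R * P := by rw [h12]
  have e4 : P * R' * P' = P := by rw [h9, h3]
  have e5 : P * R' * P = P := by rw [h9, h1]
  have e6 : P * R * P' = P * R := by rw [mul_assoc, h11]
  have l : (P' - P) * (R' - R) * (P' - P) = P' * R' * P' - P' * R' * P - P' * R * P' + P' * R * P
      - P * R' * P' + P * R' * P + P * R * P' - P * R * P := by noncomm_ring
  have r : (P - R) * (P - R) = P * P - P * R - R * P + R * R := by noncomm_ring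
  rw [l, r, e1, e2, e3, e4, e5, e6, h1, h5]
  noncomm_ring

set_option linter.unusedSectionVars false

variable {Ω : Type*} [Fintype Ω] [DecidableEq Ω]

/-- A symmetric idempotent matrix. -/
structure SI (A : Matrix Ω Ω ℝ) : Prop where
  symm : Aᵀ = A
  idem : A * A = A

lemma entry_TT (B : Matrix Ω Ω ℝ) (x : Ω) : (Bᵀ * B) x x = ∑ y, B y x ^ 2 := by
  simp [Matrix.mul_apply, sq]

lemma trace_TT (B : Matrix Ω Ω ℝ) : trace (Bᵀ * B) = ∑ x, ∑ y, B y x ^ 2 := by
  simp [Matrix.trace, entry_TT]

lemma trace_TT_nonneg (B : Matrix Ω Ω ℝ) : 0 ≤ trace (Bᵀ * B) := by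
  rw [trace_TT]; positivity

lemma SI.one_sub {A : Matrix Ω Ω ℝ} (h : SI A) : SI (1 - A) := by
  constructor
  · rw [transpose_sub, h.symm, transpose_one]
  · have := h.idem
    have e : (1 - A) * (1 - A) = 1 - A - A + A * A := by noncomm_ring
    rw [e, this]; noncomm_ring

lemma SI.trace_mul_nonneg {A B : Matrix Ω Ω ℝ} (hA : SI A) (hB : SI B) :
    0 ≤ trace (A * B) := by
  have h : trace (A * B) = trace ((A * B)ᵀ * (A * B)) := by
    rw [transpose_mul, hA.symm, hB.symm]
    have : B * A * (A * B) = B * (A * B) := by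
      rw [← mul_assoc, mul_assoc B A A, hA.idem, mul_assoc]
    rw [this, Matrix.trace_mul_comm B (A * B), mul_assoc, hB.idem]
  rw [h]; exact trace_TT_nonneg _

lemma SI.trace_mul_le {A B : Matrix Ω Ω ℝ} (hA : SI A) (hB : SI B) :
    trace (A * B) ≤ trace A := by
  have h := hA.trace_mul_nonneg hB.one_sub
  rw [mul_sub, mul_one, trace_sub] at h
  linarith

lemma SI.conj {A : Matrix Ω Ω ℝ} (hA : SI A) {z : Ω → ℝ} (hz : ∀ x, z x * z x = 1) :
    SI (diagonal z * A * diagonal z) := by
  have hzz : diagonal z * diagonal z = (1 : Matrix Ω Ω ℝ) := by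
    rw [diagonal_mul_diagonal]; ext x y; simp [diagonal, Matrix.one_apply, hz]
  constructor
  · rw [transpose_mul, transpose_mul, diagonal_transpose, hA.symm, mul_assoc]
  · calc diagonal z * A * diagonal z * (diagonal z * A * diagonal z)
        = diagonal z * A * (diagonal z * diagonal z) * A * diagonal z := by simp only [mul_assoc]
      _ = diagonal z * A * A * diagonal z := by rw [hzz, mul_one]
      _ = diagonal z * A * diagonal z := by rw [mul_assoc (diagonal z) A A, hA.idem]

lemma trace_conj {A : Matrix Ω Ω ℝ} {z : Ω → ℝ} (hz : ∀ x, z x * z x = 1) :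
    trace (diagonal z * A * diagonal z) = trace A := by
  have hzz : diagonal z * diagonal z = (1 : Matrix Ω Ω ℝ) := by
    rw [diagonal_mul_diagonal]; ext x y; simp [diagonal, Matrix.one_apply, hz]
  rw [Matrix.trace_mul_comm, ← mul_assoc, hzz, one_mul]

lemma conj_apply (A : Matrix Ω Ω ℝ) (z : Ω → ℝ) (x y : Ω) :
    (diagonal z * A * diagonal z) x y = z x * A x y * z y := by
  rw [mul_diagonal, diagonal_mul]

/-- A complete flag of symmetric projections with binomial dimensions. -/
structure Flag (n : ℕ) (Q : ℕ → Matrix Ω Ω ℝ) : Prop where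
  symm : ∀ a, (Q a)ᵀ = Q a
  mul : ∀ a b, a ≤ b → Q a * Q b = Q a
  zero : Q 0 = 0
  top : Q (n + 1) = 1
  tr : ∀ a, trace (Q a) = ∑ k ∈ range a, (n.choose k : ℝ)

namespace Flag

variable {n : ℕ} {Q : ℕ → Matrix Ω Ω ℝ}

lemma mul' (h : Flag n Q) (a b : ℕ) (hab : a ≤ b) : Q b * Q a = Q a := by
  have := congrArg transpose (h.mul a b hab)
  rwa [transpose_mul, h.symm, h.symm] at this

lemma si (h : Flag n Q) (a : ℕ) : SI (Q a) := ⟨h.symm a, h.mul a a le_rfl⟩

/-- conjugated flag -/
def tw (z : Ω → ℝ) (Q : ℕ → Matrix Ω Ω ℝ) (a : ℕ) : Matrix Ω Ω ℝ :=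
  diagonal z * Q a * diagonal z

lemma diag_sq {z : Ω → ℝ} (hz : ∀ x, z x * z x = 1) :
    diagonal z * diagonal z = (1 : Matrix Ω Ω ℝ) := by
  rw [diagonal_mul_diagonal]; ext x y; simp [diagonal, Matrix.one_apply, hz]

lemma tw_mul_tw {z : Ω → ℝ} (hz : ∀ x, z x * z x = 1) (A B : Matrix Ω Ω ℝ) :
    (diagonal z * A * diagonal z) * (diagonal z * B * diagonal z)
      = diagonal z * (A * B) * diagonal z := by
  calc diagonal z * A * diagonal z * (diagonal z * B * diagonal z)
        = diagonal z * A * (diagonal z * diagonal z) * B * diagonal z := by simp only [mul_assoc]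
      _ = diagonal z * A * B * diagonal z := by rw [diag_sq hz, mul_one]
      _ = _ := by simp only [mul_assoc]

/-- Contraction property: entries of `∑ Q_a - z (∑ Q_a) z`. -/
lemma contraction (h : Flag n Q) {z : Ω → ℝ} (hz : ∀ x, z x * z x = 1)
    (hzQ : ∀ a, Q (a + 1) * (diagonal z * Q a) = diagonal z * Q a) (x : Ω) :
    ∑ y, ((∑ a ∈ range (n + 1), (Q a - tw z Q a)) x y) ^ 2 ≤ 1 := by
  set T : Matrix Ω Ω ℝ := ∑ a ∈ range (n + 1), (Q a - tw z Q a) with hT
  have hzz := diag_sq (Ω := Ω) hz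
  have twsi : ∀ a, SI (tw z Q a) := fun a => (h.si a).conj hz
  have tw_mul : ∀ a b, a ≤ b → tw z Q a * tw z Q b = tw z Q a := by
    intro a b hab
    unfold tw
    rw [tw_mul_tw hz, h.mul a b hab]
  have tw_mul' : ∀ a b, a ≤ b → tw z Q b * tw z Q a = tw z Q a := by
    intro a b hab
    unfold tw
    rw [tw_mul_tw hz, h.mul' a b hab]
  -- Q~_a ≤ Q_(a+1)
  have c1 : ∀ a, Q (a + 1) * tw z Q a = tw z Q a := by
    intro a; unfold tw; rw [← mul_assoc, hzQ a]
  have c1' : ∀ a, tw z Q a * Q (a + 1) = tw z Q a := by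
    intro a
    have := congrArg transpose (c1 a)
    rwa [transpose_mul, (twsi a).symm, h.symm] at this
  -- Q_a ≤ Q~_(a+1)
  have c2 : ∀ a, tw z Q (a + 1) * Q a = Q a := by
    intro a
    unfold tw
    calc diagonal z * Q (a + 1) * diagonal z * Q a
        = diagonal z * (Q (a + 1) * (diagonal z * Q a)) := by simp only [mul_assoc]
      _ = diagonal z * (diagonal z * Q a) := by rw [hzQ a]
      _ = Q a := by rw [← mul_assoc, hzz, one_mul]
  have c2' : ∀ a, Q a * tw z Q (a + 1) = Q a := by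
    intro a
    have := congrArg transpose (c2 a)
    rwa [transpose_mul, (twsi (a+1)).symm, h.symm] at this
  -- general versions
  have d1' : ∀ a b, a < b → tw z Q a * Q b = tw z Q a := by
    intro a b hab
    calc tw z Q a * Q b = tw z Q a * Q (a + 1) * Q b := by rw [c1']
      _ = tw z Q a * (Q (a + 1) * Q b) := by rw [mul_assoc]
      _ = tw z Q a := by rw [h.mul _ _ hab, c1']
  have d2' : ∀ a b, a < b → Q a * tw z Q b = Q a := by
    intro a b hab
    calc Q a * tw z Q b = Q a * tw z Q (a + 1) * tw z Q b := by rw [c2']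
      _ = Q a * (tw z Q (a + 1) * tw z Q b) := by rw [mul_assoc]
      _ = Q a := by rw [tw_mul _ _ hab, c2']
  have orth : ∀ a b, a < b → (Q a - tw z Q a) * (Q b - tw z Q b) = 0 := by
    intro a b hab
    have : (Q a - tw z Q a) * (Q b - tw z Q b)
        = Q a * Q b - Q a * tw z Q b - tw z Q a * Q b + tw z Q a * tw z Q b := by noncomm_ring
    rw [this, h.mul a b hab.le, d2' a b hab, d1' a b hab, tw_mul a b hab.le]
    noncomm_ring
  have Esymm : ∀ a, (Q a - tw z Q a)ᵀ = Q a - tw z Q a := by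
    intro a; rw [transpose_sub, h.symm, (twsi a).symm]
  have orth' : ∀ a b, a ≠ b → (Q a - tw z Q a) * (Q b - tw z Q b) = 0 := by
    intro a b hab
    rcases lt_or_gt_of_ne hab with h1 | h1
    · exact orth a b h1
    · have := congrArg transpose (orth b a h1)
      rwa [transpose_mul, Esymm, Esymm, transpose_zero] at this
  have Tsymm : Tᵀ = T := by
    rw [hT, transpose_sum]; exact Finset.sum_congr rfl fun a _ => Esymm a
  have TT : T * T = ∑ a ∈ range (n + 1), (Q a - tw z Q a) * (Q a - tw z Q a) := by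
    rw [hT, Finset.sum_mul_sum]
    refine Finset.sum_congr rfl fun a ha => ?_
    rw [Finset.sum_eq_single a]
    · intro b _ hb; exact orth' a b (Ne.symm hb)
    · intro h; exact absurd ha h
  have key : T * T = 1 - ∑ k ∈ range (n + 1),
      (Q (k + 1) - Q k) * (tw z Q (k + 1) - tw z Q k) * (Q (k + 1) - Q k) := by
    have e : ∀ k, (Q (k + 1) - Q k) * (tw z Q (k + 1) - tw z Q k) * (Q (k + 1) - Q k)
        = (Q (k + 1) * tw z Q (k + 1) * Q (k + 1) - Q k * tw z Q k * Q k)
          - (Q k - tw z Q k) * (Q k - tw z Q k) := by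
      intro k
      exact ring_ident (Q k) (Q (k+1)) (tw z Q k) (tw z Q (k+1)) (h.si k).idem
        (h.mul _ _ (Nat.le_succ k)) (h.mul' _ _ (Nat.le_succ k)) (twsi k).idem
        (c2' k) (c2 k) (c1' k) (c1 k)
    rw [Finset.sum_congr rfl fun k _ => e k, Finset.sum_sub_distrib,
      Finset.sum_range_sub (fun k => Q k * tw z Q k * Q k), TT]
    have t1 : Q (n + 1) * tw z Q (n + 1) * Q (n + 1) = 1 := by
      unfold tw; rw [h.top]; simp [hzz]
    have t0 : Q 0 * tw z Q 0 * Q 0 = 0 := by rw [h.zero]; simp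
    rw [t1, t0]; noncomm_ring
  have nonneg : ∀ k, 0 ≤ ((Q (k + 1) - Q k) * (tw z Q (k + 1) - tw z Q k) * (Q (k + 1) - Q k)) x x := by
    intro k
    have s1 : (Q (k + 1) - Q k)ᵀ = Q (k + 1) - Q k := by rw [transpose_sub, h.symm, h.symm]
    have s2 : (tw z Q (k + 1) - tw z Q k)ᵀ = tw z Q (k + 1) - tw z Q k := by
      rw [transpose_sub, (twsi _).symm, (twsi _).symm]
    have s3 : (tw z Q (k + 1) - tw z Q k) * (tw z Q (k + 1) - tw z Q k)
        = tw z Q (k + 1) - tw z Q k := by
      have : (tw z Q (k + 1) - tw z Q k) * (tw z Q (k + 1) - tw z Q k)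
        = tw z Q (k + 1) * tw z Q (k + 1) - tw z Q (k + 1) * tw z Q k - tw z Q k * tw z Q (k + 1)
          + tw z Q k * tw z Q k := by noncomm_ring
      rw [this, (twsi _).idem, (twsi _).idem, tw_mul _ _ (Nat.le_succ k),
        tw_mul' _ _ (Nat.le_succ k)]
      noncomm_ring
    have s4 : (Q (k + 1) - Q k) * (tw z Q (k + 1) - tw z Q k) * (Q (k + 1) - Q k)
        = ((tw z Q (k + 1) - tw z Q k) * (Q (k + 1) - Q k))ᵀ
          * ((tw z Q (k + 1) - tw z Q k) * (Q (k + 1) - Q k)) := by
      rw [transpose_mul, s1, s2]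
      calc (Q (k + 1) - Q k) * (tw z Q (k + 1) - tw z Q k) * (Q (k + 1) - Q k)
          = (Q (k + 1) - Q k) * ((tw z Q (k + 1) - tw z Q k) * (tw z Q (k + 1) - tw z Q k))
            * (Q (k + 1) - Q k) := by rw [s3]
        _ = _ := by simp only [mul_assoc]
    rw [s4, entry_TT]
    positivity
  have row : ∑ y, (T x y) ^ 2 = (T * T) x x := by
    rw [Matrix.mul_apply]
    refine Finset.sum_congr rfl fun y _ => ?_
    have : T y x = T x y := by
      have := congrFun (congrFun Tsymm x) y
      rwa [transpose_apply] at this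
    rw [this, sq]
  rw [row, key, Matrix.sub_apply, Matrix.one_apply_eq, Matrix.sum_apply]
  have := Finset.sum_nonneg fun k (_ : k ∈ range (n + 1)) => nonneg k
  linarith

end Flag

end Crest.Agent.GL
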