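import Mathlib

set_option autoImplicit false

/-! Binomial estimates (used for S0483). -/

namespace Crest.Agent.GL

open Finset

lemma sum_choose (n : ℕ) : ∑ k ∈ range (n + 1), (n.choose k : ℝ) = 2 ^ n := by
  have := Nat.sum_range_choose n
  exact_mod_cast this

lemma sum_var (n : ℕ) : ∑ k ∈ range (n + 1), (n.choose k : ℝ) * (2 * (k : ℝ) - n) ^ 2
    = (n : ℝ) * 2 ^ n := by
  have h := bernsteinPolynomial.variance ℝ n
  have h2 := congrArg (Polynomial.eval (1/2 : ℝ)) h
  simp only [Polynomial.eval_finsetSum, Polynomial.eval_mul, Polynomial.eval_pow,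
    Polynomial.eval_sub, Polynomial.eval_X, Polynomial.eval_natCast,
    Polynomial.eval_one, bernsteinPolynomial, nsmul_eq_mul] at h2
  have h3 : ∀ k ∈ range (n + 1), ((n : ℝ) * (1 / 2) - k) ^ 2 * ((n.choose k : ℝ) * (1 / 2) ^ k * (1 - 1 / 2) ^ (n - k))
      = (1 / 4) * (1 / 2) ^ n * ((n.choose k : ℝ) * (2 * (k : ℝ) - n) ^ 2) := by
    intro k hk
    have hk' : k ≤ n := Nat.lt_succ_iff.mp (mem_range.mp hk)
    have : (1 - 1 / 2 : ℝ) ^ (n - k) = (1/2) ^ (n - k) := by norm_num
    rw [this]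
    have e : (1 / 2 : ℝ) ^ n = (1 / 2) ^ k * (1 / 2) ^ (n - k) := by
      rw [← pow_add]; congr 1; omega
    rw [e]; ring
  rw [Finset.sum_congr rfl h3, ← Finset.mul_sum] at h2
  have h4 : (2 : ℝ) ^ n * (1 / 2) ^ n = 1 := by rw [← mul_pow]; norm_num
  have h5 : (1 / 4 : ℝ) * (1 / 2) ^ n * ∑ k ∈ range (n + 1), (n.choose k : ℝ) * (2 * (k : ℝ) - n) ^ 2
      = (n : ℝ) / 4 := by rw [h2]; ring
  set A := ∑ k ∈ range (n + 1), (n.choose k : ℝ) * (2 * (k : ℝ) - n) ^ 2
  linear_combination 4 * (2 : ℝ) ^ n * h5 - A * h4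

lemma sum_odd (n : ℕ) : ∑ k ∈ range (n + 1), (n.choose k : ℝ) * (2 * (k : ℝ) - n) = 0 := by
  have h := Finset.sum_range_reflect (fun k => (n.choose k : ℝ) * (2 * (k : ℝ) - n)) (n + 1)
  have h2 : ∀ k ∈ range (n + 1), (n.choose (n + 1 - 1 - k) : ℝ) * (2 * ((n + 1 - 1 - k : ℕ) : ℝ) - n)
      = - ((n.choose k : ℝ) * (2 * (k : ℝ) - n)) := by
    intro k hk
    have hk' : k ≤ n := Nat.lt_succ_iff.mp (mem_range.mp hk)
    have : n + 1 - 1 - k = n - k := by omega
    rw [this, Nat.choose_symm hk', Nat.cast_sub hk']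
    ring
  rw [Finset.sum_congr rfl h2, Finset.sum_neg_distrib] at h
  linarith

lemma sum_abs (n : ℕ) : ∑ k ∈ range (n + 1), (n.choose k : ℝ) * |2 * (k : ℝ) - n|
    ≤ Real.sqrt n * 2 ^ n := by
  have cs : (∑ k ∈ range (n + 1), (n.choose k : ℝ) * |2 * (k : ℝ) - n|) ^ 2
      ≤ (∑ k ∈ range (n + 1), (n.choose k : ℝ)) *
        (∑ k ∈ range (n + 1), (n.choose k : ℝ) * (2 * (k : ℝ) - n) ^ 2) := by
    have := Finset.sum_mul_sq_le_sq_mul_sq (range (n + 1)) (fun k => Real.sqrt (n.choose k : ℝ))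
      (fun k => Real.sqrt (n.choose k : ℝ) * |2 * (k : ℝ) - n|)
    have e1 : ∀ k, Real.sqrt (n.choose k : ℝ) * (Real.sqrt (n.choose k : ℝ) * |2 * (k : ℝ) - n|)
        = (n.choose k : ℝ) * |2 * (k : ℝ) - n| := by
      intro k; rw [← mul_assoc, Real.mul_self_sqrt (Nat.cast_nonneg _)]
    have e2 : ∀ k, (Real.sqrt (n.choose k : ℝ)) ^ 2 = (n.choose k : ℝ) := by
      intro k; rw [Real.sq_sqrt (Nat.cast_nonneg _)]
    have e3 : ∀ k, (Real.sqrt (n.choose k : ℝ) * |2 * (k : ℝ) - n|) ^ 2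
        = (n.choose k : ℝ) * (2 * (k : ℝ) - n) ^ 2 := by
      intro k; rw [mul_pow, Real.sq_sqrt (Nat.cast_nonneg _), sq_abs]
    simp only [e1, e2, e3] at this
    exact this
  rw [sum_choose, sum_var] at cs
  have h0 : (2 : ℝ) ^ n * (n * 2 ^ n) = (Real.sqrt n * 2 ^ n) ^ 2 := by
    rw [mul_pow, Real.sq_sqrt (Nat.cast_nonneg _)]; ring
  rw [h0] at cs
  exact (le_abs_self _).trans (abs_le_of_sq_le_sq cs (by positivity))

/-- the ranks of the projections -/
noncomputable def gg (n d t : ℕ) : ℝ :=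
  ∑ k ∈ range (n + 1), if k ≤ t ∧ t < k + d then (n.choose k : ℝ) else 0

lemma gg_nonneg (n d t : ℕ) : 0 ≤ gg n d t := by
  unfold gg
  refine Finset.sum_nonneg fun k _ => ?_
  split_ifs <;> positivity

lemma card_window {n d k : ℕ} (hk : k ≤ n) :
    ((range (n + d)).filter (fun t => k ≤ t ∧ t < k + d)).card = d := by
  have : (range (n + d)).filter (fun t => k ≤ t ∧ t < k + d) = Finset.Ico k (k + d) := by
    ext t; simp only [mem_filter, mem_range, Finset.mem_Ico]; omega
  rw [this]; simp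

lemma sum_gg_mul (n d : ℕ) (φ : ℕ → ℝ) :
    ∑ t ∈ range (n + d), gg n d t * φ t = ∑ k ∈ range (n + 1), (n.choose k : ℝ) *
      ∑ t ∈ (range (n + d)).filter (fun t => k ≤ t ∧ t < k + d), φ t := by
  unfold gg
  simp only [Finset.sum_mul]
  rw [Finset.sum_comm]
  refine Finset.sum_congr rfl fun k _ => ?_
  rw [Finset.sum_filter, Finset.mul_sum]
  refine Finset.sum_congr rfl fun t _ => ?_
  split_ifs <;> simp

lemma sum_gg (n d : ℕ) : ∑ t ∈ range (n + d), gg n d t = d * 2 ^ n := by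
  have h := sum_gg_mul n d (fun _ => 1)
  simp only [mul_one] at h
  rw [h]
  have : ∀ k ∈ range (n + 1), (n.choose k : ℝ) *
      ∑ t ∈ (range (n + d)).filter (fun t => k ≤ t ∧ t < k + d), (1 : ℝ)
      = (d : ℝ) * (n.choose k : ℝ) := by
    intro k hk
    have hk' : k ≤ n := Nat.lt_succ_iff.mp (mem_range.mp hk)
    rw [Finset.sum_const, card_window hk', nsmul_eq_mul, mul_one, mul_comm]
  rw [Finset.sum_congr rfl this, ← Finset.mul_sum, sum_choose]

/-- distance from the centre -/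
def uu (n d t : ℕ) : ℕ := (2 * (t : ℤ) - ((n : ℤ) + d - 1)).natAbs

lemma card_uu (n d t : ℕ) (hd : 1 ≤ d) :
    ((range (n + d)).filter (fun s => uu n d s ≤ uu n d t)).card ≤ uu n d t + 1 := by
  by_cases h : n + d - 1 ≤ 2 * t
  · have hsub : (range (n + d)).filter (fun s => uu n d s ≤ uu n d t)
        ⊆ Finset.Icc (n + d - 1 - t) t := by
      intro s hs
      simp only [mem_filter, mem_range, Finset.mem_Icc, uu] at hs ⊢
      omega
    calc _ ≤ (Finset.Icc (n + d - 1 - t) t).card := Finset.card_le_card hsub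
      _ = t + 1 - (n + d - 1 - t) := Nat.card_Icc _ _
      _ ≤ uu n d t + 1 := by unfold uu; omega
  · have hsub : (range (n + d)).filter (fun s => uu n d s ≤ uu n d t)
        ⊆ Finset.Icc t (n + d - 1 - t) := by
      intro s hs
      simp only [mem_filter, mem_range, Finset.mem_Icc, uu] at hs ⊢
      omega
    calc _ ≤ (Finset.Icc t (n + d - 1 - t)).card := Finset.card_le_card hsub
      _ = n + d - 1 - t + 1 - t := Nat.card_Icc _ _
      _ ≤ uu n d t + 1 := by unfold uu; omega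

lemma sum_min_le (n d : ℕ) (hd : 1 ≤ d) :
    ∑ s ∈ range (n + d), ∑ t ∈ range (n + d), min (gg n d s) (gg n d t)
      ≤ 2 ^ n * (2 * d * Real.sqrt n + 2 * d ^ 2) := by
  have h1 : ∑ s ∈ range (n + d), ∑ t ∈ range (n + d), min (gg n d s) (gg n d t)
      ≤ ∑ s ∈ range (n + d), ∑ t ∈ range (n + d),
        ((if uu n d s ≤ uu n d t then gg n d t else 0)
          + (if uu n d t ≤ uu n d s then gg n d s else 0)) := by
    refine Finset.sum_le_sum fun s _ => Finset.sum_le_sum fun t _ => ?_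
    have a1 := gg_nonneg n d s
    have a2 := gg_nonneg n d t
    rcases le_total (uu n d s) (uu n d t) with h | h
    · rw [if_pos h]
      have : min (gg n d s) (gg n d t) ≤ gg n d t := min_le_right _ _
      have : 0 ≤ (if uu n d t ≤ uu n d s then gg n d s else 0) := by split_ifs <;> simp [a1]
      linarith
    · rw [if_pos h]
      have : min (gg n d s) (gg n d t) ≤ gg n d s := min_le_left _ _
      have : 0 ≤ (if uu n d s ≤ uu n d t then gg n d t else 0) := by split_ifs <;> simp [a2]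
      linarith
  have h2 : ∑ s ∈ range (n + d), ∑ t ∈ range (n + d),
        ((if uu n d s ≤ uu n d t then gg n d t else 0)
          + (if uu n d t ≤ uu n d s then gg n d s else 0))
      = 2 * ∑ t ∈ range (n + d), gg n d t *
        (((range (n + d)).filter (fun s => uu n d s ≤ uu n d t)).card : ℝ) := by
    simp only [Finset.sum_add_distrib]
    have e1 : ∑ s ∈ range (n + d), ∑ t ∈ range (n + d),
        (if uu n d s ≤ uu n d t then gg n d t else 0)
        = ∑ t ∈ range (n + d), gg n d t *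
        (((range (n + d)).filter (fun s => uu n d s ≤ uu n d t)).card : ℝ) := by
      rw [Finset.sum_comm]
      refine Finset.sum_congr rfl fun t _ => ?_
      rw [← Finset.sum_filter, Finset.sum_const, nsmul_eq_mul, mul_comm]
    have e2 : ∑ s ∈ range (n + d), ∑ t ∈ range (n + d),
        (if uu n d t ≤ uu n d s then gg n d s else 0)
        = ∑ t ∈ range (n + d), gg n d t *
        (((range (n + d)).filter (fun s => uu n d s ≤ uu n d t)).card : ℝ) := by
      refine Finset.sum_congr rfl fun t _ => ?_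
      rw [← Finset.sum_filter, Finset.sum_const, nsmul_eq_mul, mul_comm]
    rw [e1, e2]; ring
  have h3 : ∑ t ∈ range (n + d), gg n d t *
        (((range (n + d)).filter (fun s => uu n d s ≤ uu n d t)).card : ℝ)
      ≤ ∑ t ∈ range (n + d), gg n d t * ((uu n d t : ℝ) + 1) := by
    refine Finset.sum_le_sum fun t _ => mul_le_mul_of_nonneg_left ?_ (gg_nonneg n d t)
    exact_mod_cast card_uu n d t hd
  have h4 : ∑ t ∈ range (n + d), gg n d t * ((uu n d t : ℝ) + 1)
      ≤ ∑ k ∈ range (n + 1), (n.choose k : ℝ) * (d * (|2 * (k : ℝ) - n| + d)) := by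
    rw [sum_gg_mul]
    refine Finset.sum_le_sum fun k hk => mul_le_mul_of_nonneg_left ?_ (Nat.cast_nonneg _)
    have hk' : k ≤ n := Nat.lt_succ_iff.mp (mem_range.mp hk)
    calc ∑ t ∈ (range (n + d)).filter (fun t => k ≤ t ∧ t < k + d), ((uu n d t : ℝ) + 1)
        ≤ ∑ t ∈ (range (n + d)).filter (fun t => k ≤ t ∧ t < k + d), (|2 * (k : ℝ) - n| + d) := by
          refine Finset.sum_le_sum fun t ht => ?_
          simp only [mem_filter, mem_range] at ht
          have hu : uu n d t + 1 ≤ (2 * (k : ℤ) - n).natAbs + d := by unfold uu; omega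
          have hu' : ((uu n d t : ℝ) + 1) ≤ (((2 * (k : ℤ) - n).natAbs : ℕ) : ℝ) + d := by
            exact_mod_cast hu
          have e : (((2 * (k : ℤ) - n).natAbs : ℕ) : ℝ) = |2 * (k : ℝ) - n| := by
            rw [Nat.cast_natAbs]; push_cast; rfl
          rw [e] at hu'; exact hu'
      _ = d * (|2 * (k : ℝ) - n| + d) := by
          rw [Finset.sum_const, card_window hk', nsmul_eq_mul]
  have h5 : ∑ k ∈ range (n + 1), (n.choose k : ℝ) * (d * (|2 * (k : ℝ) - n| + d))
      = d * (∑ k ∈ range (n + 1), (n.choose k : ℝ) * |2 * (k : ℝ) - n|)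
        + d ^ 2 * ∑ k ∈ range (n + 1), (n.choose k : ℝ) := by
    rw [Finset.mul_sum, Finset.mul_sum, ← Finset.sum_add_distrib]
    refine Finset.sum_congr rfl fun k _ => ?_
    ring
  have h6 := sum_abs n
  have hd0 : (0 : ℝ) ≤ d := Nat.cast_nonneg _
  have h7 := mul_le_mul_of_nonneg_left h6 hd0
  rw [sum_choose] at h5
  nlinarith

end Crest.Agent.GL
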