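import Crest.Agent.GL.Tr

set_option autoImplicit false
set_option linter.unusedSectionVars false

/-! From the flag to the count of sensitive edges (used for S0483). -/

namespace Crest.Agent.GL

open Matrix Finset

/-- sign of a bit -/
def sg (b : Bool) : ℝ := if b then 1 else -1

lemma sg_sq (b : Bool) : sg b * sg b = 1 := by cases b <;> simp [sg]

lemma sg_not (b : Bool) : sg (!b) = - sg b := by cases b <;> simp [sg]

variable {n : ℕ}

/-- coordinate sign -/
def zz (i : Fin n) (x : Fin n → Bool) : ℝ := sg (x i)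

/-- flip -/
def fl (i : Fin n) (x : Fin n → Bool) : Fin n → Bool := Function.update x i (!(x i))

/-- the full character -/
def ch (x : Fin n → Bool) : ℝ := ∏ j, sg (x j)

lemma zz_sq (i : Fin n) (x : Fin n → Bool) : zz i x * zz i x = 1 := sg_sq _

lemma ch_sq (x : Fin n → Bool) : ch x * ch x = 1 := by
  unfold ch
  rw [← Finset.prod_mul_distrib]
  exact Finset.prod_eq_one fun j _ => sg_sq _

lemma fl_same (i : Fin n) (x : Fin n → Bool) : fl i x i = !(x i) := by simp [fl]

lemma fl_ne (i j : Fin n) (x : Fin n → Bool) (h : j ≠ i) : fl i x j = x j := by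
  simp [fl, Function.update_of_ne h]

lemma fl_ne_self (i : Fin n) (x : Fin n → Bool) : fl i x ≠ x := by
  intro h
  have := congrFun h i
  rw [fl_same] at this
  cases hx : x i <;> simp [hx] at this

lemma fl_inj (x : Fin n → Bool) {i j : Fin n} (h : fl i x = fl j x) : i = j := by
  by_contra hne
  have := congrFun h i
  rw [fl_same, fl_ne j i x hne] at this
  cases hx : x i <;> simp [hx] at this

lemma ch_fl (i : Fin n) (x : Fin n → Bool) : ch (fl i x) = - ch x := by
  unfold ch
  rw [← Finset.mul_prod_erase Finset.univ _ (Finset.mem_univ i),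
    ← Finset.mul_prod_erase Finset.univ (fun j => sg (x j)) (Finset.mem_univ i), fl_same, sg_not]
  have : ∏ j ∈ Finset.univ.erase i, sg (fl i x j) = ∏ j ∈ Finset.univ.erase i, sg (x j) := by
    refine Finset.prod_congr rfl fun j hj => ?_
    rw [fl_ne i j x (Finset.ne_of_mem_erase hj)]
  rw [this]; ring

lemma zz_fl (i : Fin n) (x : Fin n → Bool) : zz i (fl i x) = - zz i x := by
  unfold zz; rw [fl_same, sg_not]

lemma zz_sub_sq (i : Fin n) (x y : Fin n → Bool) :
    (1 - zz i x * zz i y) ^ 2 = if x i ≠ y i then 4 else 0 := by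
  unfold zz sg
  cases x i <;> cases y i <;> norm_num

/-- the pointwise inequality -/
lemma two_le (x y : Fin n → Bool) (hxy : y ≠ x) :
    (2 : ℝ) ≤ ∑ i, (if x i ≠ y i then (1 : ℝ) else 0) + ∑ i, (if fl i x = y then (1 : ℝ) else 0) := by
  obtain ⟨i, hi⟩ : ∃ i, x i ≠ y i := by
    by_contra h
    push Not at h
    exact hxy (funext fun i => (h i).symm)
  by_cases hj : ∃ j, j ≠ i ∧ x j ≠ y j
  · obtain ⟨j, hji, hj⟩ := hj
    have h1 : (2 : ℝ) ≤ ∑ i, (if x i ≠ y i then (1 : ℝ) else 0) := by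
      calc (2 : ℝ) = ∑ k ∈ ({j, i} : Finset (Fin n)), (if x k ≠ y k then (1 : ℝ) else 0) := by
            rw [Finset.sum_pair hji, if_pos hi, if_pos hj]; norm_num
        _ ≤ _ := by
            refine Finset.sum_le_sum_of_subset_of_nonneg (Finset.subset_univ _) fun k _ _ => ?_
            split_ifs <;> norm_num
    have h2 : (0 : ℝ) ≤ ∑ i, (if fl i x = y then (1 : ℝ) else 0) :=
      Finset.sum_nonneg fun k _ => by split_ifs <;> norm_num
    linarith
  · push Not at hj
    have hy : fl i x = y := by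
      funext k
      by_cases hk : k = i
      · subst hk
        rw [fl_same]
        cases hx : x k <;> cases hy : y k <;> simp_all
      · rw [fl_ne i k x hk, hj k hk]
    have h1 : (1 : ℝ) ≤ ∑ i, (if x i ≠ y i then (1 : ℝ) else 0) := by
      calc (1 : ℝ) = if x i ≠ y i then (1 : ℝ) else 0 := by rw [if_pos hi]
        _ ≤ _ := Finset.single_le_sum (f := fun i => if x i ≠ y i then (1 : ℝ) else 0)
            (fun k _ => by split_ifs <;> norm_num) (Finset.mem_univ i)
    have h2 : (1 : ℝ) ≤ ∑ i, (if fl i x = y then (1 : ℝ) else 0) := by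
      calc (1 : ℝ) = if fl i x = y then (1 : ℝ) else 0 := by rw [if_pos hy]
        _ ≤ _ := Finset.single_le_sum (f := fun i => if fl i x = y then (1 : ℝ) else 0)
            (fun k _ => by split_ifs <;> norm_num) (Finset.mem_univ i)
    linarith

open Crest.Agent.GL.Flag

theorem count_bound {Q : ℕ → Matrix (Fin n → Bool) (Fin n → Bool) ℝ} (h : Flag n Q) {d : ℕ}
    (hd : 1 ≤ d) {f : (Fin n → Bool) → ℝ} (hf : ∀ x, f x * f x = 1)
    (hz : ∀ i a, Q (a + 1) * (diagonal (zz i) * Q a) = diagonal (zz i) * Q a)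
    (hq : ∀ a b, a + b + d ≤ n + 1 → Q a * (diagonal f * diagonal ch) * Q b = 0) :
    ∑ x, ∑ i, (if f x ≠ f (fl i x) then (1 : ℝ) else 0)
      ≤ 2 ^ n * (4 * d * Real.sqrt n + 2 * d ^ 2) := by
  set S := SS n Q with hS
  set R := RR n f ch Q with hR
  set M := MM n Q with hM
  -- row contraction
  have T1 : ∀ (i : Fin n) (x : Fin n → Bool),
      ∑ y, (if x i ≠ y i then 4 * (S x y) ^ 2 else 0) ≤ 1 := by
    intro i x
    have := h.contraction (zz_sq i) (hz i) x
    refine le_trans (le_of_eq ?_) this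
    refine Finset.sum_congr rfl fun y _ => ?_
    have e : (∑ a ∈ range (n + 1), (Q a - tw (zz i) Q a)) x y = (1 - zz i x * zz i y) * S x y := by
      rw [Finset.sum_sub_distrib, Matrix.sub_apply]
      unfold tw
      rw [← Finset.sum_mul, ← Finset.mul_sum, conj_apply]
      have : (∑ a ∈ range (n + 1), Q a) x y = S x y := rfl
      rw [this]; ring
    rw [e, mul_pow, zz_sub_sq]
    split_ifs <;> simp
  have T2 : ∀ (i : Fin n) (x : Fin n → Bool), 4 * (S x (fl i x)) ^ 2 ≤ 1 := by
    intro i x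
    refine le_trans ?_ (T1 i x)
    have hne : x i ≠ (fl i x) i := by
      rw [fl_same]; cases x i <;> simp
    calc 4 * (S x (fl i x)) ^ 2 = (if x i ≠ (fl i x) i then 4 * (S x (fl i x)) ^ 2 else 0) := by
          rw [if_pos hne]
      _ ≤ _ := Finset.single_le_sum (f := fun y => if x i ≠ y i then 4 * (S x y) ^ 2 else 0)
            (fun k _ => by split_ifs <;> positivity) (Finset.mem_univ (fl i x))
  -- row inequality
  have T3 : ∀ x : Fin n → Bool, 8 * ∑ y ∈ Finset.univ.erase x, (S x y) ^ 2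
      ≤ n + 4 * ∑ i, (S x (fl i x)) ^ 2 := by
    intro x
    have a1 : ∑ i : Fin n, ∑ y, (if x i ≠ y i then 4 * (S x y) ^ 2 else 0) ≤ (n : ℝ) := by
      calc _ ≤ ∑ i : Fin n, (1 : ℝ) := Finset.sum_le_sum fun i _ => T1 i x
        _ = n := by simp
    have a2 : ∑ i : Fin n, ∑ y, (if x i ≠ y i then 4 * (S x y) ^ 2 else 0)
        = ∑ y, 4 * (S x y) ^ 2 * ∑ i, (if x i ≠ y i then (1 : ℝ) else 0) := by
      rw [Finset.sum_comm]
      refine Finset.sum_congr rfl fun y _ => ?_
      rw [Finset.mul_sum]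
      refine Finset.sum_congr rfl fun i _ => ?_
      split_ifs <;> simp
    have a3 : 4 * ∑ i, (S x (fl i x)) ^ 2
        = ∑ y, 4 * (S x y) ^ 2 * ∑ i, (if fl i x = y then (1 : ℝ) else 0) := by
      rw [Finset.mul_sum]
      have : ∀ y, 4 * (S x y) ^ 2 * ∑ i, (if fl i x = y then (1 : ℝ) else 0)
          = ∑ i, (if fl i x = y then 4 * (S x y) ^ 2 else 0) := by
        intro y; rw [Finset.mul_sum]
        refine Finset.sum_congr rfl fun i _ => ?_
        split_ifs <;> simp
      rw [Finset.sum_congr rfl fun y _ => this y, Finset.sum_comm]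
      refine Finset.sum_congr rfl fun i _ => ?_
      rw [Finset.sum_ite_eq]; simp
    rw [a2] at a1
    rw [a3]
    have a4 : 8 * ∑ y ∈ Finset.univ.erase x, (S x y) ^ 2
        ≤ ∑ y, 4 * (S x y) ^ 2 * (∑ i, (if x i ≠ y i then (1 : ℝ) else 0)
          + ∑ i, (if fl i x = y then (1 : ℝ) else 0)) := by
      rw [Finset.mul_sum]
      calc ∑ y ∈ Finset.univ.erase x, 8 * (S x y) ^ 2
          ≤ ∑ y ∈ Finset.univ.erase x, 4 * (S x y) ^ 2 * (∑ i, (if x i ≠ y i then (1 : ℝ) else 0)
          + ∑ i, (if fl i x = y then (1 : ℝ) else 0)) := by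
            refine Finset.sum_le_sum fun y hy => ?_
            have h2 := two_le x y (Finset.ne_of_mem_erase hy)
            have h4 : 0 ≤ 4 * (S x y) ^ 2 := by positivity
            nlinarith
        _ ≤ _ := by
            refine Finset.sum_le_sum_of_subset_of_nonneg (Finset.subset_univ _) fun y _ _ => ?_
            refine mul_nonneg (by positivity) (add_nonneg ?_ ?_) <;>
            exact Finset.sum_nonneg fun k _ => by split_ifs <;> norm_num
    simp only [mul_add, Finset.sum_add_distrib] at a4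
    linarith
  -- M entries
  have M_ne : ∀ x y, y ≠ x → (M x y) ^ 2 = (S x y) ^ 2 := by
    intro x y hxy
    have : M x y = - S x y := by
      rw [hM]; unfold MM
      rw [Matrix.sub_apply, Matrix.smul_apply, Matrix.one_apply_ne (Ne.symm hxy)]; simp [hS]
    rw [this]; ring
  have R_diag : ∀ x, R x x = 2 * M x x := by
    intro x
    rw [hR, hM]; unfold RR MM
    rw [Matrix.sub_apply, Matrix.sub_apply, Matrix.sub_apply, Matrix.smul_apply, Matrix.smul_apply,
      Matrix.one_apply_eq, conj_apply, conj_apply, smul_eq_mul, smul_eq_mul]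
    linear_combination (- SS n Q x x) * hf x - SS n Q x x * ch_sq x
  have R_sens : ∀ x i, f x ≠ f (fl i x) → (R x (fl i x)) ^ 2 = 4 * (S x (fl i x)) ^ 2 := by
    intro x i hne
    have hff : f x * f (fl i x) = -1 := by
      have h1 := hf x
      have h2 := hf (fl i x)
      have h3 : (f x * f (fl i x)) * (f x * f (fl i x)) = 1 := by
        calc _ = (f x * f x) * (f (fl i x) * f (fl i x)) := by ring
          _ = 1 := by rw [h1, h2, one_mul]
      rcases mul_self_eq_one_iff.mp h3 with h4 | h4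
      · exfalso; apply hne
        have : f x * (f x * f (fl i x)) = f x := by rw [h4, mul_one]
        rw [← mul_assoc, h1, one_mul] at this
        exact this.symm
      · exact h4
    have hcc : ch x * ch (fl i x) = -1 := by rw [ch_fl, mul_neg, ch_sq]
    have : R x (fl i x) = 2 * S x (fl i x) := by
      rw [hR]; unfold RR
      rw [Matrix.sub_apply, Matrix.sub_apply, Matrix.smul_apply,
        Matrix.one_apply_ne (Ne.symm (fl_ne_self i x)), conj_apply, conj_apply, smul_zero]
      linear_combination (- SS n Q x (fl i x)) * hff - SS n Q x (fl i x) * hcc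
    rw [this]; ring
  -- edge sum
  have E1 : ∑ x, ∑ i : Fin n, (1 - 4 * (S x (fl i x)) ^ 2) ≤ 2 * ∑ x, (R x x) ^ 2 := by
    have b1 : ∑ x : Fin n → Bool, ∑ i : Fin n, (1 - 4 * (S x (fl i x)) ^ 2)
        ≤ ∑ x : Fin n → Bool, (2 * (n : ℝ) - 8 * ∑ y ∈ Finset.univ.erase x, (S x y) ^ 2) := by
      refine Finset.sum_le_sum fun x _ => ?_
      have := T3 x
      rw [Finset.sum_sub_distrib, ← Finset.mul_sum]
      simp only [Finset.sum_const, Finset.card_univ, Fintype.card_fin, nsmul_eq_mul, mul_one]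
      linarith
    have b2 : ∀ x, ∑ y ∈ Finset.univ.erase x, (S x y) ^ 2
        = ∑ y, (M x y) ^ 2 - (M x x) ^ 2 := by
      intro x
      rw [← Finset.add_sum_erase Finset.univ (fun y => (M x y) ^ 2) (Finset.mem_univ x)]
      rw [add_sub_cancel_left]
      refine Finset.sum_congr rfl fun y hy => ?_
      rw [M_ne x y (Finset.ne_of_mem_erase hy)]
    have b3 := h.MM_sq
    have b4 : ∑ x : Fin n → Bool, (2 * (n : ℝ) - 8 * ∑ y ∈ Finset.univ.erase x, (S x y) ^ 2)
        = 2 * ∑ x, (R x x) ^ 2 := by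
      rw [Finset.sum_congr rfl fun x _ => by rw [b2 x]]
      rw [Finset.sum_sub_distrib, ← Finset.mul_sum (s := Finset.univ) (a := (8 : ℝ)),
        Finset.sum_sub_distrib]
      have : ∑ x : Fin n → Bool, 2 * (n : ℝ) = 2 * n * 2 ^ n := by
        simp [Finset.sum_const, Finset.card_univ]; ring
      have e5 : ∑ x, (R x x) ^ 2 = 4 * ∑ x, (M x x) ^ 2 := by
        rw [Finset.mul_sum]; exact Finset.sum_congr rfl fun x _ => by rw [R_diag x]; ring
      rw [this, e5]
      linarith
    linarith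
  -- sensitive edges
  have E2 : ∑ x, ∑ i : Fin n, (if f x ≠ f (fl i x) then 4 * (S x (fl i x)) ^ 2 else 0)
      ≤ ∑ x, ∑ y ∈ Finset.univ.erase x, (R x y) ^ 2 := by
    refine Finset.sum_le_sum fun x _ => ?_
    calc ∑ i : Fin n, (if f x ≠ f (fl i x) then 4 * (S x (fl i x)) ^ 2 else 0)
        ≤ ∑ i : Fin n, (R x (fl i x)) ^ 2 := by
          refine Finset.sum_le_sum fun i _ => ?_
          split_ifs with h1
          · rw [R_sens x i h1]
          · positivity
      _ = ∑ y ∈ Finset.univ.image (fun i => fl i x), (R x y) ^ 2 := by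
          rw [Finset.sum_image]
          intro i _ j _ hij
          exact fl_inj x hij
      _ ≤ _ := by
          refine Finset.sum_le_sum_of_subset_of_nonneg ?_ fun y _ _ => sq_nonneg _
          intro y hy
          obtain ⟨i, _, rfl⟩ := Finset.mem_image.mp hy
          exact Finset.mem_erase.mpr ⟨fl_ne_self i x, Finset.mem_univ _⟩
  have E3 : ∑ x, ∑ i : Fin n, (if f x ≠ f (fl i x) then (1 : ℝ) else 0)
      ≤ ∑ x, ∑ i : Fin n, (if f x ≠ f (fl i x) then 4 * (S x (fl i x)) ^ 2 else 0)
        + ∑ x, ∑ i : Fin n, (1 - 4 * (S x (fl i x)) ^ 2) := by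
    rw [← Finset.sum_add_distrib]
    refine Finset.sum_le_sum fun x _ => ?_
    rw [← Finset.sum_add_distrib]
    refine Finset.sum_le_sum fun i _ => ?_
    have := T2 i x
    split_ifs <;> linarith
  have E4 : ∑ x, ∑ y ∈ Finset.univ.erase x, (R x y) ^ 2 + ∑ x, (R x x) ^ 2
      = ∑ x, ∑ y, (R x y) ^ 2 := by
    rw [← Finset.sum_add_distrib]
    refine Finset.sum_congr rfl fun x _ => ?_
    rw [← Finset.add_sum_erase Finset.univ (fun y => (R x y) ^ 2) (Finset.mem_univ x)]
    ring
  have E5 := h.hs_bound hd hf ch_sq hq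
  have E6 : 0 ≤ ∑ x, ∑ y ∈ Finset.univ.erase x, (R x y) ^ 2 :=
    Finset.sum_nonneg fun x _ => Finset.sum_nonneg fun y _ => sq_nonneg _
  have E7 : ∑ x, ∑ y, (R x y) ^ 2 ≤ 2 ^ n * (2 * d * Real.sqrt n + d ^ 2) := E5
  calc ∑ x, ∑ i : Fin n, (if f x ≠ f (fl i x) then (1 : ℝ) else 0)
      ≤ 2 * ∑ x, ∑ y, (R x y) ^ 2 := by linarith
    _ ≤ 2 * (2 ^ n * (2 * d * Real.sqrt n + d ^ 2)) := by linarith
    _ = _ := by ring

end Crest.Agent.GL
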