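import Crest.Agent.GL.Alg
import Crest.Agent.GL.Comb

set_option autoImplicit false
set_option linter.unusedSectionVars false

/-! The Hilbert–Schmidt bound (used for S0483). -/

namespace Crest.Agent.GL

open Matrix Finset

variable {Ω : Type*} [Fintype Ω] [DecidableEq Ω]

/-- product of diagonal sign matrices in the middle -/
lemma SI.of_three {F X : Matrix Ω Ω ℝ} (hF : SI F) (hX : SI X) (hFX : F * X = 0) :
    SI (1 - F - X) := by
  have hXF : X * F = 0 := by
    have := congrArg transpose hFX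
    rwa [transpose_mul, hF.symm, hX.symm, transpose_zero] at this
  constructor
  · rw [transpose_sub, transpose_sub, hF.symm, hX.symm, transpose_one]
  · have : (1 - F - X) * (1 - F - X) = 1 - F - F + F * F - X - X + F * X + X * F + X * X := by
      noncomm_ring
    rw [this, hFX, hXF, hF.idem, hX.idem]; noncomm_ring

namespace Flag

variable {n : ℕ} {Q : ℕ → Matrix Ω Ω ℝ}

/-- the sum of the flag -/
def SS (n : ℕ) (Q : ℕ → Matrix Ω Ω ℝ) : Matrix Ω Ω ℝ := ∑ a ∈ range (n + 1), Q a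

/-- D_t -/
def DD (n d : ℕ) (f χ : Ω → ℝ) (Q : ℕ → Matrix Ω Ω ℝ) (t : ℕ) : Matrix Ω Ω ℝ :=
  1 - tw f Q (t + 1 - d) - tw χ Q (n - t)

lemma DD_si (h : Flag n Q) {d : ℕ} {f χ : Ω → ℝ} (hf : ∀ x, f x * f x = 1)
    (hχ : ∀ x, χ x * χ x = 1)
    (hq : ∀ a b, a + b + d ≤ n + 1 → Q a * (diagonal f * diagonal χ) * Q b = 0) (t : ℕ) :
    SI (DD n d f χ Q t) := by
  refine SI.of_three ((h.si _).conj hf) ((h.si _).conj hχ) ?_
  have e : ∀ a b, diagonal f * Q a * diagonal f * (diagonal χ * Q b * diagonal χ)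
      = diagonal f * (Q a * (diagonal f * diagonal χ) * Q b) * diagonal χ := by
    intro a b; simp only [mul_assoc]
  unfold tw
  rw [e]
  by_cases h1 : t + 1 ≤ d
  · have : t + 1 - d = 0 := by omega
    rw [this, h.zero]; simp
  · by_cases h2 : n ≤ t
    · have : n - t = 0 := by omega
      rw [this, h.zero]; simp
    · rw [hq _ _ (by omega)]; simp

lemma trace_one (h : Flag n Q) : trace (1 : Matrix Ω Ω ℝ) = 2 ^ n := by
  rw [← h.top, h.tr, sum_choose]

lemma DD_trace (h : Flag n Q) {d : ℕ} {f χ : Ω → ℝ} (hf : ∀ x, f x * f x = 1)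
    (hχ : ∀ x, χ x * χ x = 1) (t : ℕ) (ht : t < n + d) :
    trace (DD n d f χ Q t) = gg n d t := by
  unfold DD tw
  rw [trace_sub, trace_sub, trace_conj hf, trace_conj hχ, h.trace_one, h.tr, h.tr, ← sum_choose n]
  unfold gg
  have e1 : ∑ k ∈ range (t + 1 - d), (n.choose k : ℝ)
      = ∑ k ∈ range (n + 1), if k + d ≤ t then (n.choose k : ℝ) else 0 := by
    rw [← Finset.sum_filter]
    congr 1
    ext k; simp only [mem_filter, mem_range]; omega
  have e2 : ∑ k ∈ range (n - t), (n.choose k : ℝ)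
      = ∑ k ∈ range (n + 1), if t < k then (n.choose k : ℝ) else 0 := by
    have e3 : ∑ k ∈ range (n - t), (n.choose k : ℝ)
        = ∑ k ∈ range (n + 1), if k < n - t then (n.choose k : ℝ) else 0 := by
      rw [← Finset.sum_filter]
      congr 1
      ext k; simp only [mem_filter, mem_range]; omega
    rw [e3, ← Finset.sum_range_reflect]
    refine Finset.sum_congr rfl fun k hk => ?_
    have hk' : k ≤ n := Nat.lt_succ_iff.mp (mem_range.mp hk)
    have : n + 1 - 1 - k = n - k := by omega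
    rw [this, Nat.choose_symm hk']
    by_cases h1 : t < k
    · rw [if_pos h1, if_pos (by omega)]
    · rw [if_neg h1, if_neg (by omega)]
  rw [e1, e2, ← Finset.sum_sub_distrib, ← Finset.sum_sub_distrib]
  refine Finset.sum_congr rfl fun k hk => ?_
  by_cases h1 : k ≤ t
  · by_cases h2 : t < k + d
    · rw [if_neg (by omega), if_neg (by omega), if_pos ⟨h1, h2⟩]; ring
    · rw [if_pos (by omega), if_neg (by omega), if_neg (by omega)]; ring
  · rw [if_neg (by omega), if_pos (by omega), if_neg (by omega)]; ring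

lemma DD_sum (h : Flag n Q) {d : ℕ} (hd : 1 ≤ d) {f χ : Ω → ℝ} :
    ∑ t ∈ range (n + d), DD n d f χ Q t
      = ((n : ℝ) + d) • (1 : Matrix Ω Ω ℝ) - diagonal f * SS n Q * diagonal f
        - diagonal χ * SS n Q * diagonal χ := by
  unfold DD tw SS
  rw [Finset.sum_sub_distrib, Finset.sum_sub_distrib]
  have e0 : ∑ t ∈ range (n + d), (1 : Matrix Ω Ω ℝ) = ((n : ℝ) + d) • (1 : Matrix Ω Ω ℝ) := by
    rw [Finset.sum_const, card_range, ← Nat.cast_add, ← Nat.cast_smul_eq_nsmul ℝ]
  have e1 : ∑ t ∈ range (n + d), Q (t + 1 - d) = ∑ a ∈ range (n + 1), Q a := by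
    have : n + d = (d - 1) + (n + 1) := by omega
    rw [this, Finset.sum_range_add]
    have z : ∑ x ∈ range (d - 1), Q (x + 1 - d) = 0 := by
      refine Finset.sum_eq_zero fun x hx => ?_
      have : x + 1 - d = 0 := by have := mem_range.mp hx; omega
      rw [this, h.zero]
    rw [z, zero_add]
    refine Finset.sum_congr rfl fun x _ => ?_
    congr 1; omega
  have e2 : ∑ t ∈ range (n + d), Q (n - t) = ∑ a ∈ range (n + 1), Q a := by
    have : n + d = (n + 1) + (d - 1) := by omega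
    rw [this, Finset.sum_range_add]
    have z : ∑ x ∈ range (d - 1), Q (n - (n + 1 + x)) = 0 := by
      refine Finset.sum_eq_zero fun x hx => ?_
      have : n - (n + 1 + x) = 0 := by omega
      rw [this, h.zero]
    rw [z, add_zero, ← Finset.sum_range_reflect]
    refine Finset.sum_congr rfl fun x hx => ?_
    congr 1
    have := mem_range.mp hx; omega
  rw [e0, ← Finset.sum_mul, ← Finset.mul_sum, ← Finset.sum_mul, ← Finset.mul_sum, e1, e2]

/-- R -/
def RR (n : ℕ) (f χ : Ω → ℝ) (Q : ℕ → Matrix Ω Ω ℝ) : Matrix Ω Ω ℝ :=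
  (n : ℝ) • (1 : Matrix Ω Ω ℝ) - diagonal f * SS n Q * diagonal f
        - diagonal χ * SS n Q * diagonal χ

lemma SS_symm (h : Flag n Q) : (SS n Q)ᵀ = SS n Q := by
  unfold SS; rw [transpose_sum]; exact Finset.sum_congr rfl fun a _ => h.symm a

lemma sum_sq_eq_trace {A : Matrix Ω Ω ℝ} (hA : Aᵀ = A) :
    ∑ x, ∑ y, A x y ^ 2 = trace (A * A) := by
  have : trace (A * A) = trace (Aᵀ * A) := by rw [hA]
  rw [this, trace_TT, Finset.sum_comm]

lemma hs_bound (h : Flag n Q) {d : ℕ} (hd : 1 ≤ d) {f χ : Ω → ℝ} (hf : ∀ x, f x * f x = 1)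
    (hχ : ∀ x, χ x * χ x = 1)
    (hq : ∀ a b, a + b + d ≤ n + 1 → Q a * (diagonal f * diagonal χ) * Q b = 0) :
    ∑ x, ∑ y, (RR n f χ Q x y) ^ 2 ≤ 2 ^ n * (2 * d * Real.sqrt n + d ^ 2) := by
  set D := ∑ t ∈ range (n + d), DD n d f χ Q t with hD
  have hDR : D = RR n f χ Q + (d : ℝ) • (1 : Matrix Ω Ω ℝ) := by
    rw [hD, h.DD_sum hd]; unfold RR; rw [add_smul]; abel
  have Rsymm : (RR n f χ Q)ᵀ = RR n f χ Q := by
    unfold RR
    rw [transpose_sub, transpose_sub, transpose_smul, transpose_one, transpose_mul, transpose_mul,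
      transpose_mul, transpose_mul, h.SS_symm, diagonal_transpose, diagonal_transpose, mul_assoc,
      mul_assoc]
  have trD : trace D = d * 2 ^ n := by
    rw [hD, trace_sum, ← sum_gg]
    exact Finset.sum_congr rfl fun t ht => h.DD_trace hf hχ t (mem_range.mp ht)
  have trDD : trace (D * D) ≤ 2 ^ n * (2 * d * Real.sqrt n + 2 * d ^ 2) := by
    refine le_trans ?_ (sum_min_le n d hd)
    rw [hD, Finset.sum_mul_sum, trace_sum]
    refine Finset.sum_le_sum fun s hs => ?_
    rw [trace_sum]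
    refine Finset.sum_le_sum fun t ht => ?_
    rw [← h.DD_trace hf hχ t (mem_range.mp ht), ← h.DD_trace hf hχ s (mem_range.mp hs)]
    refine le_min ((h.DD_si hf hχ hq s).trace_mul_le (h.DD_si hf hχ hq t)) ?_
    rw [Matrix.trace_mul_comm]
    exact (h.DD_si hf hχ hq t).trace_mul_le (h.DD_si hf hχ hq s)
  have hRD : RR n f χ Q = D - (d : ℝ) • (1 : Matrix Ω Ω ℝ) := by rw [hDR]; abel
  have e : RR n f χ Q * RR n f χ Q
      = D * D - (2 * (d : ℝ)) • D + ((d : ℝ) ^ 2) • (1 : Matrix Ω Ω ℝ) := by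
    rw [hRD]
    simp only [sub_mul, mul_sub, smul_mul_assoc, mul_smul_comm, mul_one, one_mul]
    module
  rw [sum_sq_eq_trace Rsymm, e, trace_add, trace_sub, trace_smul, trace_smul, trD, h.trace_one,
    smul_eq_mul, smul_eq_mul]
  nlinarith

end Flag

end Crest.Agent.GL
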