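import Crest.Agent.GL.Space

set_option autoImplicit false
set_option linter.unusedSectionVars false

/-! Average sensitivity of polynomial threshold functions (used for S0483). -/

namespace Crest.Agent.GL

open Matrix Finset

variable {n : ℕ}

/-- the bound for a nonvanishing polynomial -/
theorem main_nonvanish {d : ℕ} (hd : 1 ≤ d) (c : Finset (Fin n) → ℝ)
    (hc : ∀ S, d < S.card → c S = 0) (p : (Fin n → Bool) → ℝ)
    (hp : ∀ x, p x = ∑ S, c S * chi S x) (hp0 : ∀ x, p x ≠ 0) (f : (Fin n → Bool) → ℝ)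
    (hf : ∀ x, f x = if 0 < p x then 1 else -1) :
    ∑ x, ∑ i, (if f x ≠ f (fl i x) then (1 : ℝ) else 0)
      ≤ 2 ^ n * (4 * d * Real.sqrt n + 2 * d ^ 2) := by
  set w : (Fin n → Bool) → ℝ := fun x => Real.sqrt |p x| with hw
  have hw0 : ∀ x, w x ≠ 0 := fun x => by
    rw [hw]; exact (Real.sqrt_pos.mpr (abs_pos.mpr (hp0 x))).ne'
  have hff : ∀ x, f x * f x = 1 := by
    intro x; rw [hf x]; split_ifs <;> norm_num
  refine count_bound (QQ_flag hw0) hd hff (fun i a => QQ_hz w i a) ?_
  refine fun a b hab => QQ_hq c hc ?_ a b hab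
  intro x
  rw [← hp x, hw]
  simp only
  rw [Real.mul_self_sqrt (abs_nonneg _), hf x]
  split_ifs with h
  · rw [abs_of_pos h, mul_one]
  · rw [abs_of_nonpos (not_lt.mp h)]; ring

theorem main {d : ℕ} (hd : 1 ≤ d) (c : Finset (Fin n) → ℝ)
    (hc : ∀ S, d < S.card → c S = 0) (p : (Fin n → Bool) → ℝ)
    (hp : ∀ x, p x = ∑ S, c S * chi S x) (f : (Fin n → Bool) → Bool)
    (hf : ∀ x, f x = decide (0 ≤ p x)) :
    ∑ x, ∑ i, (if f x ≠ f (fl i x) then (1 : ℝ) else 0)
      ≤ 2 ^ n * (4 * d * Real.sqrt n + 2 * d ^ 2) := by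
  -- perturbation
  have h1 : ∀ x, ∃ e : ℝ, 0 < e ∧ (p x < 0 → p x + e < 0) := by
    intro x
    by_cases h : p x < 0
    · exact ⟨- p x / 2, by linarith, fun _ => by linarith⟩
    · exact ⟨1, one_pos, fun h' => absurd h' h⟩
  choose e he0 he using h1
  obtain ⟨x0, -, hx0⟩ := Finset.exists_min_image Finset.univ e ⟨fun _ => true, Finset.mem_univ _⟩
  set ε := e x0 with hε
  have hεpos : 0 < ε := he0 x0
  have hneg : ∀ x, p x < 0 → p x + ε < 0 := by
    intro x hx
    have := he x hx
    have h2 := hx0 x (Finset.mem_univ _)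
    linarith
  set c' : Finset (Fin n) → ℝ := fun S => c S + if S = ∅ then ε else 0 with hc'
  have hc'0 : ∀ S, d < S.card → c' S = 0 := by
    intro S hS
    have : S ≠ ∅ := by rintro rfl; simp at hS
    rw [hc']; simp only [if_neg this, add_zero]; exact hc S hS
  have hp' : ∀ x, p x + ε = ∑ S, c' S * chi S x := by
    intro x
    rw [hc', hp x]
    simp only [add_mul, Finset.sum_add_distrib, ite_mul, zero_mul]
    rw [Finset.sum_ite_eq']
    simp [chi]
  have hne : ∀ x, p x + ε ≠ 0 := by
    intro x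
    rcases lt_or_ge (p x) 0 with h | h
    · exact (hneg x h).ne
    · exact (by linarith : 0 < p x + ε).ne'
  have key := main_nonvanish hd c' hc'0 (fun x => p x + ε) hp' hne
    (fun x => if f x then 1 else -1) (by
      intro x
      rw [hf x]
      rcases lt_or_ge (p x) 0 with h | h
      · have h2 := hneg x h
        rw [if_neg (not_lt.mpr h2.le)]
        simp [h]
      · have h2 : 0 < p x + ε := by linarith
        rw [if_pos h2]
        simp [h])
  refine le_trans (le_of_eq ?_) key
  refine Finset.sum_congr rfl fun x _ => Finset.sum_congr rfl fun i _ => ?_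
  congr 1
  apply propext
  cases f x <;> cases f (fl i x) <;> norm_num

end Crest.Agent.GL
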