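import Crest.Agent.GL.Count

set_option autoImplicit false
set_option linter.unusedSectionVars false

/-! Construction of the flag (used for S0483). -/

namespace Crest.Agent.GL

open Matrix Finset

section proj

variable {Ω : Type*} [Fintype Ω] [DecidableEq Ω]

lemma exists_proj (V : Submodule ℝ (Ω → ℝ)) : ∃ P : Matrix Ω Ω ℝ,
    Pᵀ = P ∧ (∀ v, P *ᵥ v ∈ V) ∧ (∀ v ∈ V, P *ᵥ v = v) := by
  classical
  let e : EuclideanSpace ℝ Ω ≃ₗ[ℝ] (Ω → ℝ) := WithLp.linearEquiv 2 ℝ (Ω → ℝ)
  let V' : Submodule ℝ (EuclideanSpace ℝ Ω) := V.comap e.toLinearMap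
  let L : (Ω → ℝ) →ₗ[ℝ] (Ω → ℝ) :=
    e.toLinearMap ∘ₗ (V'.starProjection : EuclideanSpace ℝ Ω →ₗ[ℝ] EuclideanSpace ℝ Ω)
      ∘ₗ e.symm.toLinearMap
  have hL : ∀ v, L v = e (V'.starProjection (e.symm v)) := fun v => rfl
  have hdot : ∀ u v : EuclideanSpace ℝ Ω, inner ℝ u v = e u ⬝ᵥ e v := by
    intro u v
    rw [EuclideanSpace.inner_eq_star_dotProduct, star_trivial, dotProduct_comm]
    rfl
  have hsym : ∀ u v : Ω → ℝ, u ⬝ᵥ L v = L u ⬝ᵥ v := by
    intro u v
    have h1 := V'.inner_starProjection_left_eq_right (e.symm u) (e.symm v)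
    rw [hdot, hdot, LinearEquiv.apply_symm_apply, LinearEquiv.apply_symm_apply] at h1
    rw [hL, hL]; exact h1.symm
  refine ⟨LinearMap.toMatrix' L, ?_, ?_, ?_⟩
  · ext x y
    have h1 := hsym (Pi.single x 1) (Pi.single y 1)
    rw [single_one_dotProduct, dotProduct_single_one] at h1
    have h2 : ∀ a b, LinearMap.toMatrix' L a b = L (Pi.single b 1) a := by
      intro a b
      have := congrFun (LinearMap.toMatrix'_mulVec L (Pi.single b 1)) a
      rw [mulVec_single_one] at this
      exact this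
    rw [transpose_apply, h2, h2]
    exact h1.symm
  · intro v
    rw [LinearMap.toMatrix'_mulVec, hL]
    exact V'.starProjection_apply_mem (e.symm v)
  · intro v hv
    rw [LinearMap.toMatrix'_mulVec, hL]
    have : e.symm v ∈ V' := by
      change e (e.symm v) ∈ V
      rwa [LinearEquiv.apply_symm_apply]
    rw [Submodule.starProjection_eq_self_iff.mpr this, LinearEquiv.apply_symm_apply]

lemma mat_ext {A B : Matrix Ω Ω ℝ} (h : ∀ v, A *ᵥ v = B *ᵥ v) : A = B :=
  Matrix.mulVec_injective (funext h)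

end proj

variable {n : ℕ}

/-- characters -/
def chi (S : Finset (Fin n)) (x : Fin n → Bool) : ℝ := ∏ j ∈ S, sg (x j)

lemma ch_eq (x : Fin n → Bool) : ch x = chi Finset.univ x := rfl

lemma chi_sq (S : Finset (Fin n)) (x : Fin n → Bool) : chi S x * chi S x = 1 := by
  unfold chi
  rw [← Finset.prod_mul_distrib]
  exact Finset.prod_eq_one fun j _ => sg_sq _

lemma chi_fl_mem {S : Finset (Fin n)} {i : Fin n} (hi : i ∈ S) (x : Fin n → Bool) :
    chi S (fl i x) = - chi S x := by
  unfold chi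
  rw [← Finset.mul_prod_erase S _ hi, ← Finset.mul_prod_erase S (fun j => sg (x j)) hi, fl_same,
    sg_not]
  have : ∏ j ∈ S.erase i, sg (fl i x j) = ∏ j ∈ S.erase i, sg (x j) := by
    refine Finset.prod_congr rfl fun j hj => ?_
    rw [fl_ne i j x (Finset.ne_of_mem_erase hj)]
  rw [this]; ring

lemma chi_fl_not_mem {S : Finset (Fin n)} {i : Fin n} (hi : i ∉ S) (x : Fin n → Bool) :
    chi S (fl i x) = chi S x := by
  unfold chi
  refine Finset.prod_congr rfl fun j hj => ?_
  rw [fl_ne i j x (fun h => hi (h ▸ hj))]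

lemma fl_fl (i : Fin n) (x : Fin n → Bool) : fl i (fl i x) = x := by
  funext j
  by_cases h : j = i
  · subst h; rw [fl_same, fl_same, Bool.not_not]
  · rw [fl_ne i j _ h, fl_ne i j _ h]

lemma sum_eq_zero_of_flip (i : Fin n) (F : (Fin n → Bool) → ℝ) (h : ∀ x, F (fl i x) = - F x) :
    ∑ x, F x = 0 := by
  let e : (Fin n → Bool) ≃ (Fin n → Bool) := ⟨fl i, fl i, fl_fl i, fl_fl i⟩
  have h1 : ∑ x, F (e x) = ∑ x, F x := Equiv.sum_comp e F
  have h2 : ∑ x, F (e x) = - ∑ x, F x := by
    rw [← Finset.sum_neg_distrib]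
    exact Finset.sum_congr rfl fun x _ => h x
  linarith

lemma chi_orth {S T : Finset (Fin n)} (h : S ≠ T) : ∑ x, chi S x * chi T x = 0 := by
  obtain ⟨i, hi⟩ : ∃ i, ¬ (i ∈ S ↔ i ∈ T) := by
    by_contra hc; push Not at hc; exact h (Finset.ext hc)
  refine sum_eq_zero_of_flip i _ fun x => ?_
  by_cases h1 : i ∈ S
  · have h2 : i ∉ T := fun h2 => hi ⟨fun _ => h2, fun _ => h1⟩
    rw [chi_fl_mem h1, chi_fl_not_mem h2]; ring
  · have h2 : i ∈ T := by
      by_contra h2; exact hi ⟨fun h => absurd h h1, fun h => absurd h h2⟩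
    rw [chi_fl_mem h2, chi_fl_not_mem h1]; ring

lemma sum_chi4 {U S T : Finset (Fin n)} (h : U.card + S.card + T.card < n) :
    ∑ x, chi U x * chi S x * chi T x * ch x = 0 := by
  obtain ⟨i, hi⟩ : ∃ i, i ∉ U ∪ S ∪ T := by
    by_contra hc
    push Not at hc
    have h1 : (Finset.univ : Finset (Fin n)) ⊆ U ∪ S ∪ T := fun i _ => hc i
    have h2 := Finset.card_le_card h1
    have h3 := Finset.card_union_le (U ∪ S) T
    have h4 := Finset.card_union_le U S
    rw [Finset.card_univ, Fintype.card_fin] at h2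
    omega
  simp only [Finset.mem_union, not_or] at hi
  refine sum_eq_zero_of_flip i _ fun x => ?_
  rw [chi_fl_not_mem hi.1.1, chi_fl_not_mem hi.1.2, chi_fl_not_mem hi.2, ch_fl]; ring

/-- basis vectors -/
def bas (w : (Fin n → Bool) → ℝ) (S : Finset (Fin n)) : (Fin n → Bool) → ℝ := fun x => w x * chi S x

lemma bas_indep {w : (Fin n → Bool) → ℝ} (hw : ∀ x, w x ≠ 0) : LinearIndependent ℝ (bas w) := by
  rw [Fintype.linearIndependent_iff]
  intro g hg T
  have h1 : ∀ x, ∑ S, g S * chi S x = 0 := by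
    intro x
    have := congrFun hg x
    rw [Finset.sum_apply] at this
    have h2 : w x * ∑ S, g S * chi S x = 0 := by
      rw [Finset.mul_sum]
      refine Eq.trans (Finset.sum_congr rfl fun S _ => ?_) this
      simp only [Pi.smul_apply, smul_eq_mul, bas]; ring
    rcases mul_eq_zero.mp h2 with h3 | h3
    · exact absurd h3 (hw x)
    · exact h3
  have h2 : ∑ x, (∑ S, g S * chi S x) * chi T x = g T * 2 ^ n := by
    have : ∀ x, (∑ S, g S * chi S x) * chi T x = ∑ S, g S * (chi S x * chi T x) := by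
      intro x; rw [Finset.sum_mul]; exact Finset.sum_congr rfl fun S _ => by ring
    rw [Finset.sum_congr rfl fun x _ => this x, Finset.sum_comm]
    rw [Finset.sum_eq_single T]
    · rw [← Finset.mul_sum]
      congr 1
      rw [Finset.sum_congr rfl fun x _ => chi_sq T x]
      simp [Finset.card_univ]
    · intro S _ hST
      rw [← Finset.mul_sum, chi_orth hST, mul_zero]
    · intro h; exact absurd (Finset.mem_univ _) h
  have h3 : ∑ x, (∑ S, g S * chi S x) * chi T x = 0 :=
    Finset.sum_eq_zero fun x _ => by rw [h1 x, zero_mul]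
  rw [h3] at h2
  have : (2 : ℝ) ^ n ≠ 0 := by positivity
  rcases mul_eq_zero.mp h2.symm with h4 | h4
  · exact h4
  · exact absurd h4 this

/-- the flag spaces -/
def VV (w : (Fin n → Bool) → ℝ) (a : ℕ) : Submodule ℝ ((Fin n → Bool) → ℝ) :=
  Submodule.span ℝ (Set.range fun S : {S : Finset (Fin n) // S.card < a} => bas w S)

lemma bas_mem (w : (Fin n → Bool) → ℝ) {a : ℕ} {S : Finset (Fin n)} (h : S.card < a) :
    bas w S ∈ VV w a := Submodule.subset_span ⟨⟨S, h⟩, rfl⟩

lemma VV_mono (w : (Fin n → Bool) → ℝ) {a b : ℕ} (h : a ≤ b) : VV w a ≤ VV w b := by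
  unfold VV
  rw [Submodule.span_le]
  rintro _ ⟨S, rfl⟩
  exact bas_mem w (lt_of_lt_of_le S.2 h)

lemma card_lt (a : ℕ) : Fintype.card {S : Finset (Fin n) // S.card < a}
    = ∑ k ∈ range a, n.choose k := by
  rw [Fintype.card_subtype]
  rw [Finset.card_eq_sum_card_fiberwise (f := Finset.card) (t := range a)]
  · refine Finset.sum_congr rfl fun k hk => ?_
    have : (Finset.univ.filter (fun S : Finset (Fin n) => S.card < a)).filter
        (fun S => S.card = k) = Finset.powersetCard k (Finset.univ : Finset (Fin n)) := by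
      ext S
      simp only [mem_filter, mem_univ, true_and, mem_powersetCard, subset_univ]
      constructor
      · rintro ⟨_, h⟩; exact h
      · intro h; exact ⟨h ▸ mem_range.mp hk, h⟩
    rw [this, Finset.card_powersetCard, Finset.card_univ, Fintype.card_fin]
  · intro S hS
    simp only [mem_coe, mem_filter, mem_univ, true_and, mem_range] at hS ⊢
    exact hS

lemma VV_finrank {w : (Fin n → Bool) → ℝ} (hw : ∀ x, w x ≠ 0) (a : ℕ) :
    (Module.finrank ℝ (VV w a) : ℝ) = ∑ k ∈ range a, (n.choose k : ℝ) := by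
  unfold VV
  have hi : LinearIndependent ℝ (fun S : {S : Finset (Fin n) // S.card < a} => bas w S) :=
    (bas_indep hw).comp _ Subtype.val_injective
  rw [finrank_span_eq_card hi, card_lt]
  push_cast; rfl

lemma VV_zero (w : (Fin n → Bool) → ℝ) : VV w 0 = ⊥ := by
  unfold VV
  rw [Submodule.span_eq_bot]
  rintro _ ⟨S, rfl⟩
  exact absurd S.2 (Nat.not_lt_zero _)

lemma VV_top {w : (Fin n → Bool) → ℝ} (hw : ∀ x, w x ≠ 0) : VV w (n + 1) = ⊤ := by
  apply Submodule.eq_top_of_finrank_eq
  have h1 := VV_finrank hw (n + 1)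
  rw [sum_choose] at h1
  have h2 : Module.finrank ℝ ((Fin n → Bool) → ℝ) = 2 ^ n := by
    rw [Module.finrank_pi]; simp
  rw [h2]
  exact_mod_cast h1

/-- the projections -/
noncomputable def QQ (w : (Fin n → Bool) → ℝ) (a : ℕ) : Matrix (Fin n → Bool) (Fin n → Bool) ℝ :=
  (exists_proj (VV w a)).choose

lemma QQ_symm (w : (Fin n → Bool) → ℝ) (a : ℕ) : (QQ w a)ᵀ = QQ w a :=
  (exists_proj (VV w a)).choose_spec.1

lemma QQ_mem (w : (Fin n → Bool) → ℝ) (a : ℕ) (v : (Fin n → Bool) → ℝ) : QQ w a *ᵥ v ∈ VV w a :=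
  (exists_proj (VV w a)).choose_spec.2.1 v

lemma QQ_fix (w : (Fin n → Bool) → ℝ) (a : ℕ) {v : (Fin n → Bool) → ℝ} (hv : v ∈ VV w a) :
    QQ w a *ᵥ v = v :=
  (exists_proj (VV w a)).choose_spec.2.2 v hv

lemma QQ_flag {w : (Fin n → Bool) → ℝ} (hw : ∀ x, w x ≠ 0) : Flag n (QQ w) where
  symm := QQ_symm w
  mul := by
    intro a b hab
    have h : QQ w b * QQ w a = QQ w a := by
      apply mat_ext
      intro v
      rw [← mulVec_mulVec, QQ_fix w b (VV_mono w hab (QQ_mem w a v))]
    have := congrArg transpose h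
    rwa [transpose_mul, QQ_symm, QQ_symm] at this
  zero := by
    apply mat_ext
    intro v
    have := QQ_mem w 0 v
    rw [VV_zero, Submodule.mem_bot] at this
    rw [this, zero_mulVec]
  top := by
    apply mat_ext
    intro v
    rw [one_mulVec]
    apply QQ_fix
    rw [VV_top hw]; trivial
  tr := by
    intro a
    rw [← VV_finrank hw a, ← Matrix.trace_toLin'_eq]
    have : LinearMap.IsProj (VV w a) (Matrix.toLin' (QQ w a)) :=
      ⟨fun v => by rw [Matrix.toLin'_apply]; exact QQ_mem w a v,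
        fun v hv => by rw [Matrix.toLin'_apply]; exact QQ_fix w a hv⟩
    exact this.trace

lemma diag_bas (w : (Fin n → Bool) → ℝ) (i : Fin n) (S : Finset (Fin n)) :
    ∃ T : Finset (Fin n), T.card ≤ S.card + 1 ∧
      (diagonal (zz i) : Matrix (Fin n → Bool) (Fin n → Bool) ℝ) *ᵥ bas w S = bas w T := by
  by_cases hi : i ∈ S
  · refine ⟨S.erase i, le_trans (Finset.card_erase_le) (Nat.le_succ _), ?_⟩
    funext x
    rw [mulVec_diagonal]
    unfold bas chi zz
    rw [← Finset.mul_prod_erase S (fun j => sg (x j)) hi]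
    linear_combination (w x * ∏ j ∈ S.erase i, sg (x j)) * sg_sq (x i)
  · refine ⟨insert i S, Finset.card_insert_le _ _, ?_⟩
    funext x
    rw [mulVec_diagonal]
    unfold bas chi zz
    rw [Finset.prod_insert hi]
    ring

lemma QQ_hz (w : (Fin n → Bool) → ℝ) (i : Fin n) (a : ℕ) :
    QQ w (a + 1) * (diagonal (zz i) * QQ w a) = diagonal (zz i) * QQ w a := by
  have key : ∀ u ∈ VV w a,
      (diagonal (zz i) : Matrix (Fin n → Bool) (Fin n → Bool) ℝ) *ᵥ u ∈ VV w (a + 1) := by
    intro u hu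
    have : VV w a ≤ (VV w (a + 1)).comap
        (Matrix.mulVecLin (diagonal (zz i) : Matrix (Fin n → Bool) (Fin n → Bool) ℝ)) := by
      conv_lhs => unfold VV
      rw [Submodule.span_le]
      rintro _ ⟨S, rfl⟩
      obtain ⟨T, hT, h⟩ := diag_bas w i S.1
      change Matrix.mulVecLin (diagonal (zz i) : Matrix (Fin n → Bool) (Fin n → Bool) ℝ)
        (bas w S.1) ∈ VV w (a + 1)
      rw [Matrix.mulVecLin_apply, h]
      exact bas_mem w (lt_of_le_of_lt hT (Nat.succ_lt_succ S.2))
    exact this hu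
  apply mat_ext
  intro v
  rw [← mulVec_mulVec, ← mulVec_mulVec]
  exact QQ_fix w _ (key _ (QQ_mem w a v))

lemma QQ_hq {w f : (Fin n → Bool) → ℝ} {d : ℕ} (c : Finset (Fin n) → ℝ)
    (hc : ∀ S, d < S.card → c S = 0)
    (hp : ∀ x, w x * w x * f x = ∑ S, c S * chi S x) (a b : ℕ) (hab : a + b + d ≤ n + 1) :
    QQ w a * (diagonal f * diagonal ch) * QQ w b = 0 := by
  have h0 : ∀ S T : Finset (Fin n), S.card < a → T.card < b →
      bas w S ⬝ᵥ ((diagonal f * diagonal ch : Matrix (Fin n → Bool) (Fin n → Bool) ℝ) *ᵥ bas w T)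
        = 0 := by
    intro S T hS hT
    have e : bas w S ⬝ᵥ ((diagonal f * diagonal ch : Matrix (Fin n → Bool) (Fin n → Bool) ℝ)
        *ᵥ bas w T) = ∑ U, c U * ∑ x, chi U x * chi S x * chi T x * ch x := by
      rw [diagonal_mul_diagonal]
      unfold dotProduct
      have : ∀ x, bas w S x * ((diagonal fun i => f i * ch i : Matrix (Fin n → Bool)
          (Fin n → Bool) ℝ) *ᵥ bas w T) x
          = ∑ U, c U * (chi U x * chi S x * chi T x * ch x) := by
        intro x
        rw [mulVec_diagonal]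
        unfold bas
        calc w x * chi S x * (f x * ch x * (w x * chi T x))
            = (w x * w x * f x) * (chi S x * chi T x * ch x) := by ring
          _ = (∑ S, c S * chi S x) * (chi S x * chi T x * ch x) := by rw [hp x]
          _ = _ := by
              rw [Finset.sum_mul]
              exact Finset.sum_congr rfl fun U _ => by ring
      rw [Finset.sum_congr rfl fun x _ => this x, Finset.sum_comm]
      exact Finset.sum_congr rfl fun U _ => by rw [Finset.mul_sum]
    rw [e]
    refine Finset.sum_eq_zero fun U _ => ?_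
    by_cases hU : d < U.card
    · rw [hc U hU, zero_mul]
    · rw [sum_chi4 (by omega), mul_zero]
  have h1 : ∀ u ∈ VV w a, ∀ v ∈ VV w b,
      u ⬝ᵥ ((diagonal f * diagonal ch : Matrix (Fin n → Bool) (Fin n → Bool) ℝ) *ᵥ v) = 0 := by
    intro u hu v hv
    unfold VV at hu hv
    induction hu using Submodule.span_induction with
    | mem u hu =>
      obtain ⟨S, rfl⟩ := hu
      induction hv using Submodule.span_induction with
      | mem v hv =>
        obtain ⟨T, rfl⟩ := hv
        exact h0 S T S.2 T.2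
      | zero => rw [mulVec_zero, dotProduct_zero]
      | add v v' _ _ h h' => rw [mulVec_add, dotProduct_add, h, h', add_zero]
      | smul r v _ h => rw [mulVec_smul, dotProduct_smul, h, smul_zero]
    | zero => rw [zero_dotProduct]
    | add u u' _ _ h h' => rw [add_dotProduct, h, h', add_zero]
    | smul r u _ h => rw [smul_dotProduct, h, smul_zero]
  ext x y
  rw [Matrix.zero_apply]
  have h2 := h1 _ (QQ_mem w a (Pi.single x 1)) _ (QQ_mem w b (Pi.single y 1))
  have e : ∀ A : Matrix (Fin n → Bool) (Fin n → Bool) ℝ,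
      A x y = Pi.single x 1 ⬝ᵥ (A *ᵥ Pi.single y 1) := by
    intro A
    rw [single_one_dotProduct, mulVec_single_one]; rfl
  refine (e (QQ w a * (diagonal f * diagonal ch) * QQ w b)).trans ?_
  rw [← h2, ← mulVec_mulVec, ← mulVec_mulVec, dotProduct_mulVec, ← mulVec_transpose, QQ_symm]

end Crest.Agent.GL
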