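import Crest.Agent.GL.HS

set_option autoImplicit false
set_option linter.unusedSectionVars false

/-! Traces of the sum of a flag (used for S0483). -/

namespace Crest.Agent.GL

open Matrix Finset

variable {Ω : Type*} [Fintype Ω] [DecidableEq Ω]

namespace Flag

variable {n : ℕ} {Q : ℕ → Matrix Ω Ω ℝ}

lemma card_gt {n k : ℕ} (hk : k ≤ n) : ((range (n + 1)).filter (fun a => k < a)).card = n - k := by
  have : (range (n + 1)).filter (fun a => k < a) = Finset.Ico (k + 1) (n + 1) := by
    ext a; simp only [mem_filter, mem_range, Finset.mem_Ico]; omega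
  rw [this, Nat.card_Ico]; omega

lemma range_eq_ite (n a : ℕ) (ha : a ≤ n + 1) :
    ∑ k ∈ range a, (n.choose k : ℝ)
      = ∑ k ∈ range (n + 1), (n.choose k : ℝ) * (if k < a then 1 else 0) := by
  have : ∀ k ∈ range (n + 1), (n.choose k : ℝ) * (if k < a then 1 else 0)
      = if k < a then (n.choose k : ℝ) else 0 := by
    intro k _; split_ifs <;> simp
  rw [Finset.sum_congr rfl this, ← Finset.sum_filter]
  congr 1
  ext k; simp only [mem_filter, mem_range]; omega

lemma trace_SS (h : Flag n Q) :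
    trace (SS n Q) = ∑ k ∈ range (n + 1), (n.choose k : ℝ) * ((n : ℝ) - k) := by
  unfold SS
  rw [trace_sum]
  have e : ∀ a ∈ range (n + 1), trace (Q a)
      = ∑ k ∈ range (n + 1), (n.choose k : ℝ) * (if k < a then 1 else 0) := by
    intro a ha
    rw [h.tr, range_eq_ite n a (le_of_lt (mem_range.mp ha))]
  rw [Finset.sum_congr rfl e, Finset.sum_comm]
  refine Finset.sum_congr rfl fun k hk => ?_
  have hk' : k ≤ n := Nat.lt_succ_iff.mp (mem_range.mp hk)
  rw [← Finset.mul_sum, ← Finset.sum_filter, Finset.sum_const, card_gt hk', nsmul_eq_mul, mul_one,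
    Nat.cast_sub hk']

lemma trace_SS_sq (h : Flag n Q) :
    trace (SS n Q * SS n Q) = ∑ k ∈ range (n + 1), (n.choose k : ℝ) * ((n : ℝ) - k) ^ 2 := by
  unfold SS
  rw [Finset.sum_mul_sum, trace_sum]
  have e : ∀ a ∈ range (n + 1), trace (∑ b ∈ range (n + 1), Q a * Q b)
      = ∑ b ∈ range (n + 1), ∑ k ∈ range (n + 1),
        (n.choose k : ℝ) * ((if k < a then 1 else 0) * (if k < b then 1 else 0)) := by
    intro a ha
    rw [trace_sum]
    refine Finset.sum_congr rfl fun b hb => ?_
    have hmin : Q a * Q b = Q (min a b) := by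
      rcases le_total a b with hab | hab
      · rw [min_eq_left hab, h.mul a b hab]
      · rw [min_eq_right hab, h.mul' b a hab]
    rw [hmin, h.tr, range_eq_ite n _ (le_trans (min_le_left _ _) (le_of_lt (mem_range.mp ha)))]
    refine Finset.sum_congr rfl fun k _ => ?_
    congr 1
    by_cases h1 : k < a
    · by_cases h2 : k < b
      · rw [if_pos (lt_min h1 h2), if_pos h1, if_pos h2, mul_one]
      · rw [if_neg (fun h => h2 (lt_of_lt_of_le h (min_le_right _ _))), if_neg h2, mul_zero]
    · rw [if_neg (fun h => h1 (lt_of_lt_of_le h (min_le_left _ _))), if_neg h1, zero_mul]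
  rw [Finset.sum_congr rfl e]
  have e2 : ∀ a ∈ range (n + 1), ∑ b ∈ range (n + 1), ∑ k ∈ range (n + 1),
        (n.choose k : ℝ) * ((if k < a then 1 else 0) * (if k < b then 1 else 0))
      = ∑ k ∈ range (n + 1), (n.choose k : ℝ) * ((if k < a then 1 else 0) * ((n : ℝ) - k)) := by
    intro a _
    rw [Finset.sum_comm]
    refine Finset.sum_congr rfl fun k hk => ?_
    have hk' : k ≤ n := Nat.lt_succ_iff.mp (mem_range.mp hk)
    rw [← Finset.mul_sum, ← Finset.mul_sum, ← Finset.sum_filter, Finset.sum_const, card_gt hk',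
      nsmul_eq_mul, mul_one, Nat.cast_sub hk']
  rw [Finset.sum_congr rfl e2, Finset.sum_comm]
  refine Finset.sum_congr rfl fun k hk => ?_
  have hk' : k ≤ n := Nat.lt_succ_iff.mp (mem_range.mp hk)
  rw [← Finset.mul_sum, ← Finset.sum_mul, ← Finset.sum_filter, Finset.sum_const, card_gt hk',
      nsmul_eq_mul, mul_one, Nat.cast_sub hk']
  ring

/-- M -/
noncomputable def MM (n : ℕ) (Q : ℕ → Matrix Ω Ω ℝ) : Matrix Ω Ω ℝ :=
  ((n : ℝ) / 2) • (1 : Matrix Ω Ω ℝ) - SS n Q

lemma MM_sq (h : Flag n Q) : 4 * ∑ x, ∑ y, (MM n Q x y) ^ 2 = n * 2 ^ n := by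
  have hs : (MM n Q)ᵀ = MM n Q := by
    unfold MM; rw [transpose_sub, transpose_smul, transpose_one, h.SS_symm]
  have e : MM n Q * MM n Q = ((n : ℝ) ^ 2 / 4) • (1 : Matrix Ω Ω ℝ) - (n : ℝ) • SS n Q
      + SS n Q * SS n Q := by
    unfold MM
    simp only [sub_mul, mul_sub, smul_mul_assoc, mul_smul_comm, mul_one, one_mul]
    module
  rw [sum_sq_eq_trace hs, e, trace_add, trace_sub, trace_smul, trace_smul, h.trace_SS,
    h.trace_SS_sq, h.trace_one, ← sum_var, ← sum_choose n, smul_eq_mul, smul_eq_mul]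
  rw [Finset.mul_sum, Finset.mul_sum, ← Finset.sum_sub_distrib, ← Finset.sum_add_distrib,
    Finset.mul_sum]
  refine Finset.sum_congr rfl fun k _ => ?_
  ring

end Flag

end Crest.Agent.GL
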